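import Mathlib
import Vale.Agent.P366.Kerr.Defs
import Vale.Agent.P366.H353.N.Dat
import Vale.Agent.P366.H375.Hp

/-! The data of a null cone. -/

open MeasureTheory Metric Filter Topology Set
open scoped ContDiff

noncomputable section
namespace Vale.Agent.P366.KSN

open Vale.Agent.P366 (pd E)
open Vale.Agent.P366.H353.N
open Vale.Agent.P366.Kerr (NullCone)

variable {n : ℕ}

lemma stmt_pd {f : E n → ℝ} {x : E n} (hf : DifferentiableAt ℝ f x) (i : Fin n) :
    Stmt.pd i f x = pd i f x := Vale.Agent.P366.H375.pd_fderiv hf i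

lemma stmt_pd2 {f : E n → ℝ} {x : E n} (hf : ContDiffAt ℝ ∞ f x) (i j : Fin n) :
    Stmt.pd i (Stmt.pd j f) x = H353.N.hs f i j x := by
  have h1 : Stmt.pd j f =ᶠ[𝓝 x] pd j f := Vale.Agent.P366.H375.pd_ev hf j
  have h2 : ContDiffAt ℝ ∞ (pd j f) x := by
    have h3 : ContDiffAt ℝ ∞ (fderiv ℝ f) x := hf.fderiv_right (by simp)
    exact h3.clm_apply contDiffAt_const
  rw [Vale.Agent.P366.H375.pd_congr h1 i, stmt_pd (h2.differentiableAt (by simp))]
  rfl

/-- The data `(H, U)` of a null cone as `Dat n`. -/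
def _root_.Vale.Agent.P366.Kerr.NullCone.toDat (C : NullCone n) : Dat n where
  H := C.H
  U := C.U
  smH := fun x hx => (C.smooth x hx).1
  smU := fun x hx => (C.smooth x hx).2
  homH := fun x hx r hr => by rw [(C.hom x hx r hr).1, zpow_one]
  homU := fun x hx r hr => by rw [(C.hom x hx r hr).2, zpow_zero, one_mul]
  pos := fun x hx v hv h0 => by
    have h := C.reg x hx v hv h0
    have h1 : ∀ i j, Stmt.pd i (Stmt.pd j C.H) x = H353.N.hs C.H i j x := fun i j =>
      stmt_pd2 (C.smooth x (ne_zero_of_one hx)).1 i j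
    simp only [h1] at h
    exact h

end Vale.Agent.P366.KSN
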