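import Mathlib
import Vale.Agent.P366.H208.N.X3a
import Vale.Agent.P366.H208.ND

/-! Null shells in all dimensions: the integral of the null expansion of the boundary. -/

open MeasureTheory Metric Filter Topology Set
open scoped ContDiff

noncomputable section
namespace Vale.Agent.P366.H353.N.X3

open Vale.Agent.P366 (pd E)

variable {n : ℕ} {H U : E n → ℝ} {T : Ten n} {dd f g : E n → ℝ} {x : E n}

/-! ### the direction field and the boundary point -/

/-- the unit vector in the direction of `x` -/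
def nv (i : Fin n) (x : E n) : ℝ := x i / ‖x‖

lemma sm_nv (i : Fin n) : Sm (nv i) :=
  (Sm.coord i).div Sm.norm fun _ hy => norm_ne_zero_iff.mpr hy

lemma hom_nv (i : Fin n) : Hom 0 (nv i) := by
  intro x hx r hr
  have h1 : ‖x‖ ≠ 0 := norm_ne_zero_iff.mpr hx
  unfold nv
  rw [norm_smul, Real.norm_eq_abs, abs_of_pos hr]
  simp only [PiLp.smul_apply, smul_eq_mul, zpow_zero, one_mul]
  field_simp

lemma nv_one (hx : ‖x‖ = 1) (i : Fin n) : nv i x = x i := by simp [nv, hx]

lemma pd_nv (hx : ‖x‖ = 1) (i j : Fin n) : pd i (nv j) x = pr x i j := by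
  have h := Vale.Agent.P366.pd_Nc (ne_zero_of_one hx) i j
  unfold Vale.Agent.P366.Nc at h
  unfold nv
  rw [h, hx]
  unfold pr kd
  simp

lemma sum_nv (hx : x ≠ 0) : ∑ i, nv i x * nv i x = 1 := by
  have h := Vale.Agent.P366.sum_Nc_sq hx
  rw [← h]
  exact Finset.sum_congr rfl fun i _ => by unfold nv Vale.Agent.P366.Nc; ring

/-- the point of the boundary in the direction of `x` -/
def zz (H U : E n → ℝ) (x : E n) : E n := WithLp.toLp 2 fun i => pd i H x + U x * nv i x

lemma zz_apply (i : Fin n) : zz H U x i = pd i H x + U x * nv i x := rfl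

/-- `W` at the unit vector `x` -/
def Wu (H U : E n → ℝ) (x : E n) (i j : Fin n) : ℝ := hs H i j x + U x * pr x i j

/-- `f = - U` on the boundary, and the boundary is not null; `T` is the cofactor data. -/
structure BdN (H U : E n → ℝ) (T : Ten n) (dd f : E n → ℝ) : Prop where
  smH : Sm H
  smU : Sm U
  homH : Hom 1 H
  homU : Hom 0 U
  AW : ∀ x, ‖x‖ = 1 → ∀ i j, ∑ k, T.A x i k * Wu H U x k j = dd x * pr x i j
  AU : ∀ x, ‖x‖ = 1 → ∀ i, ∑ k, T.A x i k * pd k U x = dd x * T.b x i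
  dpos : ∀ x, ‖x‖ = 1 → 0 < dd x
  sm : ∀ x, ‖x‖ = 1 → ContDiffAt ℝ ∞ f (zz H U x)
  bd : ∀ x, ‖x‖ = 1 → f (zz H U x) = - U x
  tp : ∀ x, ‖x‖ = 1 → 0 < 1 + ∑ i, x i * pd i f (zz H U x)

/-- the derivatives of `f` on the boundary -/
def Fv (H U f : E n → ℝ) (i : Fin n) (x : E n) : ℝ := pd i f (zz H U x)

/-- `1 + ∂_λ f` on the boundary -/
def tt (H U f : E n → ℝ) (x : E n) : ℝ := 1 + ∑ i, nv i x * Fv H U f i x

/-- the tangential vector `b` -/
def bb (H U f : E n → ℝ) (i : Fin n) (x : E n) : ℝ :=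
  - (Fv H U f i x - (tt H U f x - 1) * nv i x) / tt H U f x

lemma unit_of (hx : x ≠ 0) : ‖‖x‖⁻¹ • x‖ = 1 := by
  rw [norm_smul, norm_inv, norm_norm, inv_mul_cancel₀ (norm_ne_zero_iff.mpr hx)]

namespace BdN

variable (B : BdN H U T dd f)

include B

lemma sm_zz (i : Fin n) : Sm fun y => zz H U y i := (B.smH.pd i).add (B.smU.mul (sm_nv i))

lemma zz_smul (hx : x ≠ 0) {r : ℝ} (hr : 0 < r) : zz H U (r • x) = zz H U x := by
  ext i
  rw [zz_apply, zz_apply]
  have h1 := (B.homH.pd B.smH i) x hx r hr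
  have h2 := B.homU x hx r hr
  have h3 := hom_nv i x hx r hr
  rw [h1, h2, h3]
  norm_num

lemma zz_cd (hx : x ≠ 0) : ContDiffAt ℝ ∞ (zz H U) x := by
  rw [contDiffAt_euclidean]
  exact fun i => B.sm_zz i x hx

lemma zz_diff (hx : x ≠ 0) : DifferentiableAt ℝ (zz H U) x :=
  (B.zz_cd hx).differentiableAt (by simp)

lemma zz_unit (hx : x ≠ 0) : zz H U x = zz H U (‖x‖⁻¹ • x) :=
  (B.zz_smul hx (inv_pos.mpr (norm_pos_iff.mpr hx))).symm

lemma pd_zz (hx : ‖x‖ = 1) (i j : Fin n) :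
    pd j (fun y => zz H U y i) x = Wu H U x j i + x i * pd j U x := by
  have h0 := ne_zero_of_one hx
  have e : (fun y => zz H U y i) = fun y => pd i H y + U y * nv i y := rfl
  rw [e, pd_add' (B.smH.pd i) (B.smU.mul (sm_nv i)) h0, pd_mul' B.smU (sm_nv i) h0, pd_nv hx,
    nv_one hx]
  unfold Wu hs
  ring

/-- chain rule -/
lemma pd_comp_zz (hx : x ≠ 0) (hg : DifferentiableAt ℝ g (zz H U x)) (j : Fin n) :
    pd j (fun y => g (zz H U y)) x = ∑ i, pd j (fun y => zz H U y i) x * pd i g (zz H U x) := by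
  unfold Vale.Agent.P366.pd
  have h := hg.hasFDerivAt.comp x (B.zz_diff hx).hasFDerivAt
  rw [show (fun y => g (zz H U y)) = g ∘ zz H U from rfl, h.fderiv]
  rw [ContinuousLinearMap.comp_apply, Vale.Agent.P366.fderiv_eq_sum_pd]
  refine Finset.sum_congr rfl fun k _ => ?_
  have h1 : HasFDerivAt (fun y => zz H U y k)
      ((EuclideanSpace.proj k : E n →L[ℝ] ℝ).comp (fderiv ℝ (zz H U) x)) x :=
    (EuclideanSpace.proj k : E n →L[ℝ] ℝ).hasFDerivAt.comp x (B.zz_diff hx).hasFDerivAt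
  rw [h1.fderiv]
  rfl

lemma sm' (hx : x ≠ 0) : ContDiffAt ℝ ∞ f (zz H U x) := by
  rw [B.zz_unit hx]; exact B.sm _ (unit_of hx)

lemma bd' (hx : x ≠ 0) : f (zz H U x) = - U x := by
  rw [B.zz_unit hx, B.bd _ (unit_of hx), B.homU x hx _ (inv_pos.mpr (norm_pos_iff.mpr hx))]
  simp

lemma sm_Fv (i : Fin n) : Sm (Fv H U f i) := fun x hx => by
  have h1 : ContDiffAt ℝ ∞ (fderiv ℝ f) (zz H U x) := (B.sm' hx).fderiv_right (by simp)
  have h2 : ContDiffAt ℝ ∞ (pd i f) (zz H U x) := h1.clm_apply contDiffAt_const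
  exact h2.comp x (B.zz_cd hx)

lemma hom_Fv (i : Fin n) : Hom 0 (Fv H U f i) := fun _ hx r hr => by
  unfold Fv
  rw [B.zz_smul hx hr]
  simp

lemma sm_tt : Sm (tt H U f) :=
  (Sm.const 1).add (Sm.sum _ fun i => (sm_nv i).mul (B.sm_Fv i))

lemma hom_tt : Hom 0 (tt H U f) :=
  (Hom.const 1).add (Hom.sum _ fun i => (((hom_nv i).mul (B.hom_Fv i)).cast (by norm_num)))

lemma tt_pos (hx : x ≠ 0) : 0 < tt H U f x := by
  have h1 := B.tp _ (unit_of hx)
  have h2 := B.hom_tt x hx _ (inv_pos.mpr (norm_pos_iff.mpr hx))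
  rw [zpow_zero, one_mul] at h2
  rw [← h2]
  unfold tt Fv
  simpa only [nv_one (unit_of hx)] using h1

lemma sm_bb (i : Fin n) : Sm (bb H U f i) :=
  (((B.sm_Fv i).sub ((B.sm_tt.sub (Sm.const 1)).mul (sm_nv i))).neg).div B.sm_tt
    fun _ hx => (B.tt_pos hx).ne'

lemma hom_bb (i : Fin n) : Hom 0 (bb H U f i) := fun x hx r hr => by
  unfold bb
  have h1 := B.hom_tt x hx r hr
  have h2 := B.hom_Fv i x hx r hr
  have h3 := hom_nv i x hx r hr
  rw [h1, h2, h3]
  simp

lemma Fv_eq (hx : x ≠ 0) (i : Fin n) :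
    Fv H U f i x = (tt H U f x - 1) * nv i x - tt H U f x * bb H U f i x := by
  have h := (B.tt_pos hx).ne'
  unfold bb
  field_simp
  ring

lemma bb_nv (hx : x ≠ 0) : ∑ i, bb H U f i x * nv i x = 0 := by
  have h := (B.tt_pos hx).ne'
  have h1 : tt H U f x * ∑ i, bb H U f i x * nv i x = 0 := by
    have h2 : ∑ i, nv i x * Fv H U f i x = tt H U f x - 1 := by unfold tt; ring
    have h3 := sum_nv hx
    have h4 : tt H U f x * ∑ i, bb H U f i x * nv i x =
        (tt H U f x - 1) * (∑ i, nv i x * nv i x) - ∑ i, nv i x * Fv H U f i x := by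
      simp only [B.Fv_eq hx, Finset.mul_sum, ← Finset.sum_sub_distrib]
      exact Finset.sum_congr rfl fun i _ => by ring
    rw [h4, h2, h3]; ring
  exact (mul_eq_zero.mp h1).resolve_left h

lemma bb_x (hx : ‖x‖ = 1) : ∑ i, bb H U f i x * x i = 0 := by
  have h := B.bb_nv (ne_zero_of_one hx)
  simpa only [nv_one hx] using h

lemma x_bb (hx : ‖x‖ = 1) : ∑ i, x i * bb H U f i x = 0 := by
  rw [← B.bb_x hx]; exact Finset.sum_congr rfl fun k _ => mul_comm _ _

omit B in
lemma sum_xx (hx : ‖x‖ = 1) : ∑ i, x i * x i = 1 := by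
  rw [← D208.sum_sq hx]
  exact Finset.sum_congr rfl fun i _ => by ring

lemma W_x (hx : ‖x‖ = 1) (i : Fin n) : ∑ j, Wu H U x i j * x j = 0 := by
  have h0 := ne_zero_of_one hx
  have h := (B.homH.pd B.smH i).euler (B.smH.pd i) h0
  push_cast at h
  have e : ∑ j, hs H i j x * x j = ∑ j, x j * pd j (pd i H) x :=
    Finset.sum_congr rfl fun j _ => by
      rw [hs_symm B.smH h0 i j, mul_comm]
      rfl
  have h2 := pr_mul (x := x) i x
  rw [sum_xx hx] at h2
  unfold Wu
  simp only [add_mul, Finset.sum_add_distrib, mul_assoc, ← Finset.mul_sum, h2, e, h]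
  ring

lemma first (hx : ‖x‖ = 1) (k : Fin n) :
    ∑ l, (Wu H U x k l + x l * pd k U x) * Fv H U f l x = - pd k U x := by
  have h0 := ne_zero_of_one hx
  have h1 := B.pd_comp_zz h0 ((B.sm' h0).differentiableAt (by simp)) k
  have h2 : pd k (fun y => f (zz H U y)) x = - pd k U x := by
    rw [pd_congr' (fun y hy => B.bd' hy) h0 k, pd_neg']
  rw [h2] at h1
  rw [h1]
  refine Finset.sum_congr rfl fun l _ => ?_
  rw [B.pd_zz hx]
  rfl

lemma W_bb (hx : ‖x‖ = 1) (k : Fin n) : ∑ i, Wu H U x k i * bb H U f i x = pd k U x := by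
  have h0 := ne_zero_of_one hx
  have h := (B.tt_pos h0).ne'
  have h1 := B.first hx k
  have h2 : ∑ i, x i * Fv H U f i x = tt H U f x - 1 := by
    unfold tt; simp only [nv_one hx]; ring
  have h3 := B.W_x hx k
  have h4 : ∑ l, (Wu H U x k l + x l * pd k U x) * Fv H U f l x =
      (tt H U f x - 1) * (∑ l, Wu H U x k l * x l) -
        tt H U f x * (∑ l, Wu H U x k l * bb H U f l x) +
        pd k U x * ∑ l, x l * Fv H U f l x := by
    have h5 : ∀ l, (Wu H U x k l + x l * pd k U x) * Fv H U f l x =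
        Wu H U x k l * Fv H U f l x + pd k U x * (x l * Fv H U f l x) := fun l => by ring
    simp only [h5, Finset.sum_add_distrib, ← Finset.mul_sum]
    congr 1
    simp only [B.Fv_eq h0, nv_one hx, Finset.mul_sum, ← Finset.sum_sub_distrib]
    exact Finset.sum_congr rfl fun l _ => by ring
  rw [h4, h2, h3] at h1
  have h6 : tt H U f x * (∑ i, Wu H U x k i * bb H U f i x - pd k U x) = 0 := by linarith
  have := (mul_eq_zero.mp h6).resolve_left h
  linarith

lemma Wu_symm (hx : ‖x‖ = 1) (i j : Fin n) : Wu H U x i j = Wu H U x j i := by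
  unfold Wu
  rw [hs_symm B.smH (ne_zero_of_one hx) i j, pr_comm]

/-- `b` is the vector of the tensor `T` -/
lemma bb_eq (hx : ‖x‖ = 1) (i : Fin n) : bb H U f i x = T.b x i := by
  have h1 : ∑ k, T.A x i k * pd k U x = dd x * bb H U f i x := by
    have h2 : ∑ k, T.A x i k * pd k U x =
        ∑ j, (∑ k, T.A x i k * Wu H U x k j) * bb H U f j x := by
      simp only [← B.W_bb hx, Finset.mul_sum, Finset.sum_mul]
      rw [Finset.sum_comm]
      exact Finset.sum_congr rfl fun k _ => Finset.sum_congr rfl fun l _ => by ring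
    rw [h2]
    simp only [B.AW x hx, mul_assoc, ← Finset.mul_sum]
    rw [pr_mul i fun j => bb H U f j x, B.x_bb hx]
    ring
  rw [B.AU x hx i] at h1
  exact (mul_left_cancel₀ (B.dpos x hx).ne' h1).symm

lemma pd_bb_x (hx : ‖x‖ = 1) (k : Fin n) : ∑ i, pd k (bb H U f i) x * x i = - bb H U f k x := by
  have h0 := ne_zero_of_one hx
  have h1 : pd k (fun y => ∑ i, bb H U f i y * nv i y) x = 0 := by
    rw [pd_congr' (h := fun y => ∑ i, bb H U f i y * nv i y) (f := fun _ => (0 : ℝ))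
      (fun y hy => B.bb_nv hy) h0 k, Vale.Agent.P366.pd_const]
  rw [pd_sum' _ (fun i => (B.sm_bb i).mul (sm_nv i)) h0] at h1
  have h2 : ∀ i, pd k (fun y => bb H U f i y * nv i y) x =
      bb H U f i x * pr x k i + pd k (bb H U f i) x * x i := fun i => by
    rw [pd_mul' (B.sm_bb i) (sm_nv i) h0, pd_nv hx, nv_one hx]
  simp only [h2, Finset.sum_add_distrib] at h1
  have h3 := pr_mul (x := x) k (fun i => bb H U f i x)
  rw [B.x_bb hx, mul_zero, sub_zero] at h3
  have h5 : ∑ i, bb H U f i x * pr x k i = bb H U f k x := by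
    rw [← h3]; exact Finset.sum_congr rfl fun i _ => mul_comm _ _
  linarith

/-- the second derivatives of `f` on the boundary -/
lemma second (hx : ‖x‖ = 1) (k i : Fin n) :
    ∑ l, (Wu H U x k l + x l * pd k U x) * hs f l i (zz H U x) =
      pd k (tt H U f) x * x i + (tt H U f x - 1) * pr x k i - pd k (tt H U f) x * bb H U f i x -
        tt H U f x * pd k (bb H U f i) x := by
  have h0 := ne_zero_of_one hx
  have hd : DifferentiableAt ℝ (pd i f) (zz H U x) := by
    have h1 : ContDiffAt ℝ ∞ (fderiv ℝ f) (zz H U x) := (B.sm' h0).fderiv_right (by simp)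
    have h2 : ContDiffAt ℝ ∞ (pd i f) (zz H U x) := h1.clm_apply contDiffAt_const
    exact h2.differentiableAt (by simp)
  have h1 := B.pd_comp_zz h0 hd k
  have h2 : pd k (fun y => pd i f (zz H U y)) x =
      pd k (tt H U f) x * x i + (tt H U f x - 1) * pr x k i - pd k (tt H U f) x * bb H U f i x -
        tt H U f x * pd k (bb H U f i) x := by
    have s1 : Sm fun y => tt H U f y - 1 := B.sm_tt.sub (Sm.const 1)
    rw [pd_congr' (h := fun y => pd i f (zz H U y))
      (f := fun y => (tt H U f y - 1) * nv i y - tt H U f y * bb H U f i y)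
      (fun y hy => B.Fv_eq hy i) h0 k,
      pd_sub' (s1.mul (sm_nv i)) (B.sm_tt.mul (B.sm_bb i)) h0, pd_mul' s1 (sm_nv i) h0,
      pd_mul' B.sm_tt (B.sm_bb i) h0, pd_sub' B.sm_tt (Sm.const 1) h0,
      Vale.Agent.P366.pd_const, pd_nv hx, nv_one hx]
    ring
  rw [h2] at h1
  rw [h1]
  refine Finset.sum_congr rfl fun l _ => ?_
  rw [B.pd_zz hx]
  rfl

/-- the null expansion times the area density -/
theorem theta {Λ : ℝ} (hx : ‖x‖ = 1) (hΛ : Λ * dd x = tr (T.A x)) :
    (Λ * (1 - ∑ i, Fv H U f i x ^ 2) / tt H U f x ^ 2 + 2 / tt H U f x *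
      ((∑ i, ∑ j, hs f i j (zz H U x) * pr x i j) +
        2 * (∑ i, ∑ j, hs f i j (zz H U x) * bb H U f i x * x j) +
        (∑ i, bb H U f i x ^ 2) * ∑ i, ∑ j, hs f i j (zz H U x) * x i * x j)) * dd x =
      tr (T.A x) * (1 - ∑ i, bb H U f i x ^ 2) -
        2 * (∑ k, ∑ i, T.A x k i * pd k (bb H U f i) x) +
        2 * ∑ k, ∑ i, T.A x k i * bb H U f k x * bb H U f i x := by
  have h0 := ne_zero_of_one hx
  have hG : ∀ i j, hs f i j (zz H U x) = hs f j i (zz H U x) := by
    intro i j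
    have hc := B.sm x hx
    have hd : DifferentiableAt ℝ (fderiv ℝ f) (zz H U x) :=
      (hc.fderiv_right (m := ∞) (by simp)).differentiableAt (by simp)
    have key : ∀ a b : Fin n, hs f a b (zz H U x) = fderiv ℝ (fderiv ℝ f) (zz H U x)
        (EuclideanSpace.single a 1) (EuclideanSpace.single b 1) := by
      intro a b
      unfold hs Vale.Agent.P366.pd
      have := fderiv_clm_apply hd (differentiableAt_const (EuclideanSpace.single b (1 : ℝ)))
      rw [this]
      simp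
    rw [key, key]
    have h2 : minSmoothness ℝ 2 ≤ (∞ : WithTop ℕ∞) := by
      rw [minSmoothness_of_isRCLikeNormedField]
      exact WithTop.coe_le_coe.2 (le_top : (2 : ℕ∞) ≤ ⊤)
    exact (hc.isSymmSndFDerivAt h2).eq _ _
  have hAU : ∀ i, ∑ k, T.A x i k * pd k U x = dd x * bb H U f i x := fun i => by
    rw [B.AU x hx i, B.bb_eq hx i]
  have hR := alg (sum_xx hx) (B.bb_x hx) (T.symA x) (T.tanA x h0) (B.AW x hx) hAU hG
    (B.pd_bb_x hx) (t := fun k => pd k (tt H U f) x) (τ := tt H U f x) (B.second hx)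
  exact alg_theta (B.tt_pos h0).ne' (sum_xx hx) (B.bb_x hx)
    (fun i => by rw [B.Fv_eq h0, nv_one hx]) hΛ hR

/-- the integration by parts -/
lemma parts [Fact (3 ≤ n)] : SI (fun x => ∑ k, ∑ i, T.A x k i * pd k (bb H U f i) x) =
    - SI (fun x => ∑ j, (tr (T.A x) * bb H U f j x - ∑ k, T.A x j k * bb H U f k x) *
      bb H U f j x) := by
  have sB := B.sm_bb
  have hB := B.hom_bb
  have s1 : ∀ k, Sm fun y => ∑ i, T.A y k i * bb H U f i y := fun k =>
    Sm.sum _ fun i => (T.smA k i).mul (sB i)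
  have h1 := SI_div (k := 0) (F := fun k y => ∑ i, T.A y k i * bb H U f i y) s1
    (fun k => Hom.sum _ fun i => (((T.homA k i).mul (hB i)).cast (by norm_num)))
  have e1 : SI (fun x => ∑ k, (∑ i, T.A x k i * bb H U f i x) * x k) = 0 := by
    have e2 : SI (fun x => ∑ k, (∑ i, T.A x k i * bb H U f i x) * x k) =
        SI (fun _ : E n => (0 : ℝ)) := SI_congr fun x hx => by
      have h0 := ne_zero_of_one hx
      simp only [Finset.sum_mul]
      rw [Finset.sum_comm]
      refine Finset.sum_eq_zero fun i _ => ?_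
      have h3 : ∑ k, T.A x k i * bb H U f i x * x k = bb H U f i x * ∑ k, T.A x i k * x k := by
        rw [Finset.mul_sum]
        exact Finset.sum_congr rfl fun k _ => by rw [T.symA x k i]; ring
      rw [h3, T.tanA x h0 i, mul_zero]
    rw [e2, SI_const, mul_zero]
  rw [e1, mul_zero] at h1
  have s5 : Sm fun x => ∑ k, ∑ i, T.A x k i * pd k (bb H U f i) x :=
    Sm.sum _ fun k => Sm.sum _ fun i => (T.smA k i).mul ((sB i).pd k)
  have sT : Sm fun x => tr (T.A x) := Sm.sum _ fun i => T.smA i i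
  have s6 : Sm fun x => ∑ j, (tr (T.A x) * bb H U f j x - ∑ k, T.A x j k * bb H U f k x) *
      bb H U f j x := Sm.sum _ fun j =>
    ((sT.mul (sB j)).sub (Sm.sum _ fun k => (T.smA j k).mul (sB k))).mul (sB j)
  have h4 : SI (fun x => (∑ k, ∑ i, T.A x k i * pd k (bb H U f i) x) +
      ∑ j, (tr (T.A x) * bb H U f j x - ∑ k, T.A x j k * bb H U f k x) * bb H U f j x) = 0 := by
    rw [← h1]
    refine SI_congr fun x hx => ?_
    have h0 := ne_zero_of_one hx
    have k1 : ∀ k, pd k (fun y => ∑ i, T.A y k i * bb H U f i y) x =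
        ∑ i, T.A x k i * pd k (bb H U f i) x + ∑ i, pd k (fun y => T.A y k i) x * bb H U f i x := by
      intro k
      rw [pd_sum' _ (fun i => (T.smA k i).mul (sB i)) h0, ← Finset.sum_add_distrib]
      refine Finset.sum_congr rfl fun i _ => ?_
      rw [pd_mul' (T.smA k i) (sB i) h0]
    have k2 := T.divA x hx (fun j => bb H U f j x) (B.x_bb hx)
    have k3 : ∑ j, (tr (T.A x) * T.b x j - ∑ k, T.A x j k * T.b x k) * bb H U f j x =
        ∑ j, (tr (T.A x) * bb H U f j x - ∑ k, T.A x j k * bb H U f k x) * bb H U f j x := by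
      simp only [B.bb_eq hx]
    rw [k3] at k2
    rw [← k2]
    simp only [k1, Finset.sum_add_distrib]
    congr 1
    rw [Finset.sum_comm]
    exact Finset.sum_congr rfl fun j _ => by rw [Finset.sum_mul]
  rw [SI_add s5.contOn s6.contOn] at h4
  linarith

/-- the integral inequality -/
theorem main [Fact (3 ≤ n)] {Θ : E n → ℝ} (hΘ : ∀ x, ‖x‖ = 1 → Θ x * dd x =
      tr (T.A x) * (1 - ∑ i, bb H U f i x ^ 2) -
        2 * (∑ k, ∑ i, T.A x k i * pd k (bb H U f i) x) +
        2 * ∑ k, ∑ i, T.A x k i * bb H U f k x * bb H U f i x) :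
    SI T.Phi ≤ SI (fun x => Θ x * dd x) := by
  have sB := B.sm_bb
  have sN : Sm fun x => ∑ i, bb H U f i x ^ 2 := Sm.sum _ fun i => (sB i).pow 2
  have sT : Sm fun x => tr (T.A x) := Sm.sum _ fun i => T.smA i i
  have s5 : Sm fun x => ∑ k, ∑ i, T.A x k i * pd k (bb H U f i) x :=
    Sm.sum _ fun k => Sm.sum _ fun i => (T.smA k i).mul ((sB i).pd k)
  have s6 : Sm fun x => ∑ j, (tr (T.A x) * bb H U f j x - ∑ k, T.A x j k * bb H U f k x) *
      bb H U f j x := Sm.sum _ fun j =>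
    ((sT.mul (sB j)).sub (Sm.sum _ fun k => (T.smA j k).mul (sB k))).mul (sB j)
  have s7 : Sm fun x => ∑ k, ∑ i, T.A x k i * bb H U f k x * bb H U f i x :=
    Sm.sum _ fun k => Sm.sum _ fun i => ((T.smA k i).mul (sB k)).mul (sB i)
  have s8 : Sm fun x => tr (T.A x) * (1 - ∑ i, bb H U f i x ^ 2) := sT.mul ((Sm.const 1).sub sN)
  have sPhi : Sm T.Phi := by
    unfold Ten.Phi qf
    exact sT.add ((sT.mul (Sm.sum _ fun i => (T.smb i).pow 2)).sub
      (Sm.sum _ fun i => Sm.sum _ fun j => ((T.smA i j).mul (T.smb i)).mul (T.smb j)))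
  rw [SI_congr hΘ]
  have e1 : SI (fun x => tr (T.A x) * (1 - ∑ i, bb H U f i x ^ 2) -
        2 * (∑ k, ∑ i, T.A x k i * pd k (bb H U f i) x) +
        2 * ∑ k, ∑ i, T.A x k i * bb H U f k x * bb H U f i x) =
      SI (fun x => tr (T.A x) * (1 - ∑ i, bb H U f i x ^ 2) +
        2 * (∑ j, (tr (T.A x) * bb H U f j x - ∑ k, T.A x j k * bb H U f k x) * bb H U f j x) +
        2 * ∑ k, ∑ i, T.A x k i * bb H U f k x * bb H U f i x) := by
    rw [SI_add (s8.sub ((Sm.const 2).mul s5)).contOn ((Sm.const 2).mul s7).contOn,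
      SI_sub s8.contOn ((Sm.const 2).mul s5).contOn,
      SI_add (s8.add ((Sm.const 2).mul s6)).contOn ((Sm.const 2).mul s7).contOn,
      SI_add s8.contOn ((Sm.const 2).mul s6).contOn, SI_cmul, SI_cmul, SI_cmul, B.parts]
    ring
  rw [e1]
  refine SI_mono sPhi.contOn ((s8.add ((Sm.const 2).mul s6)).add
    ((Sm.const 2).mul s7)).contOn fun x hx => ?_
  have h0 := ne_zero_of_one hx
  have hA : ∑ k, ∑ i, T.A x k i * bb H U f k x * bb H U f i x = qf (T.A x) (T.b x) (T.b x) := by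
    unfold qf
    simp only [B.bb_eq hx]
  have hn : ∑ i, bb H U f i x ^ 2 = ∑ i, T.b x i ^ 2 := by
    simp only [B.bb_eq hx]
  have hS : ∑ j, (tr (T.A x) * bb H U f j x - ∑ k, T.A x j k * bb H U f k x) * bb H U f j x =
      tr (T.A x) * (∑ i, T.b x i ^ 2) - qf (T.A x) (T.b x) (T.b x) := by
    unfold qf
    rw [Finset.mul_sum, ← Finset.sum_sub_distrib]
    refine Finset.sum_congr rfl fun j _ => ?_
    simp only [B.bb_eq hx]
    rw [sub_mul, Finset.sum_mul]
    congr 1
    · ring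
    · exact Finset.sum_congr rfl fun k _ => by ring
  have hpos : 0 ≤ qf (T.A x) (T.b x) (T.b x) :=
    D208.qf_nonneg (D208.sum_sq hx) (T.symA x) (T.tanA x h0) (T.posA x hx) _
  rw [hA, hn, hS]
  unfold Ten.Phi
  nlinarith [hpos]

end BdN

end Vale.Agent.P366.H353.N.X3
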