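import Mathlib
import Vale.Agent.P366.H208.N.X3b
import Vale.Agent.P366.H353.N.Dat
import Vale.Agent.P366.H222.N.Int

/-! Kerr-Schild exteriors in all dimensions: the integral of the flat null expansion of the
boundary, in terms of the data on the boundary. -/

open MeasureTheory Metric Filter Topology Set
open scoped ContDiff Matrix

noncomputable section
namespace Vale.Agent.P366.H353.N.X3

open Vale.Agent.P366 (pd E)
open Vale.Agent.P366.KSN (Y Ws Ms dts sg dL bv thl)

variable {n : ℕ} {x : E n}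

section Alg

variable (D : Dat n)

lemma W_one (hx : ‖x‖ = 1) (i j : Fin n) : D.W x i j = Wu D.H D.U x i j := by
  unfold Dat.W Wu pr
  rw [hx]
  ring

lemma M_one (hx : ‖x‖ = 1) : D.M x = Ms D.H (D.U x) x := by
  ext i j
  unfold Dat.M Ms
  rw [Matrix.of_apply, Matrix.of_apply, W_one D hx, hx]
  unfold Wu Ws
  ring

lemma dt_one (hx : ‖x‖ = 1) : D.dt x = dts D.H (D.U x) x := by
  unfold Dat.dt dts
  rw [M_one D hx]

lemma Wu_x (hx : ‖x‖ = 1) (i : Fin n) : ∑ j, Wu D.H D.U x i j * x j = 0 := by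
  have h0 := ne_zero_of_one hx
  have h := (D.homH.pd D.smH i).euler (D.smH.pd i) h0
  push_cast at h
  have e : ∑ j, hs D.H i j x * x j = ∑ j, x j * pd j (pd i D.H) x :=
    Finset.sum_congr rfl fun j _ => by
      rw [hs_symm D.smH h0 i j, mul_comm]
      rfl
  have h2 := pr_mul (x := x) i x
  rw [BdN.sum_xx hx] at h2
  unfold Wu
  simp only [add_mul, Finset.sum_add_distrib, mul_assoc, ← Finset.mul_sum, h2, e, h]
  ring

lemma M_mulVec (hx : ‖x‖ = 1) : D.M x *ᵥ (fun i => x i) = fun i => x i := by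
  funext i
  have hW := Wu_x D hx i
  unfold Matrix.mulVec dotProduct Dat.M
  simp only [Matrix.of_apply, W_one D hx, hx]
  have e : ∀ j, (Wu D.H D.U x i j + x i * x j / 1 ^ 2) * x j =
      Wu D.H D.U x i j * x j + x i * (x j * x j) := fun j => by ring
  simp only [e, Finset.sum_add_distrib, ← Finset.mul_sum, hW, BdN.sum_xx hx]
  ring

lemma adj_x (hx : ‖x‖ = 1) (i : Fin n) :
    ∑ k, (D.M x).adjugate i k * x k = D.dt x * x i := by
  have h1 : (D.M x).adjugate *ᵥ (D.M x *ᵥ (fun i => x i)) = fun i => D.dt x * x i := by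
    rw [Matrix.mulVec_mulVec, Matrix.adjugate_mul]
    funext i
    rw [Matrix.smul_mulVec, Matrix.one_mulVec]
    rfl
  rw [M_mulVec D hx] at h1
  exact congrFun h1 i

lemma A_one (hx : ‖x‖ = 1) (i j : Fin n) :
    D.A x i j = (D.M x).adjugate i j - D.dt x * (x i * x j) := by
  unfold Dat.A
  rw [hx]; ring

lemma AW (hx : ‖x‖ = 1) (i j : Fin n) :
    ∑ k, D.A x i k * Wu D.H D.U x k j = D.dt x * pr x i j := by
  have h0 := ne_zero_of_one hx
  have h1 : ∑ k, (D.M x).adjugate i k * D.M x k j = D.dt x * kd i j := by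
    have := congrFun (congrFun (Matrix.adjugate_mul (D.M x)) i) j
    rw [Matrix.mul_apply] at this
    rw [this, Matrix.smul_apply, Matrix.one_apply, smul_eq_mul]
    rfl
  have h2 := adj_x D hx i
  have h3 : ∀ k, D.M x k j = Wu D.H D.U x k j + x k * x j := by
    intro k
    unfold Dat.M
    rw [Matrix.of_apply, W_one D hx, hx]; ring
  have h4 : ∑ k, x k * Wu D.H D.U x k j = 0 := by
    rw [← Wu_x D hx j]
    refine Finset.sum_congr rfl fun k _ => ?_
    unfold Wu
    rw [hs_symm D.smH h0 k j, pr_comm k j]; ring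
  have e : ∑ k, D.A x i k * Wu D.H D.U x k j = ∑ k, (D.M x).adjugate i k * D.M x k j -
      (∑ k, (D.M x).adjugate i k * x k) * x j -
      D.dt x * x i * ∑ k, x k * Wu D.H D.U x k j := by
    simp only [A_one D hx, h3, Finset.mul_sum, Finset.sum_mul, ← Finset.sum_sub_distrib]
    exact Finset.sum_congr rfl fun k _ => by ring
  rw [e, h1, h2, h4]
  unfold pr
  ring

lemma AU (hx : ‖x‖ = 1) (hd : D.dt x ≠ 0) (i : Fin n) :
    ∑ k, D.A x i k * pd k D.U x = D.dt x * D.b x i := by
  have h0 := ne_zero_of_one hx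
  have h1 : ∑ k, x k * pd k D.U x = 0 := by
    rw [D.homU.euler D.smU h0]; simp
  have h2 : D.dt x * D.b x i = ∑ k, (D.M x).adjugate i k * pd k D.U x := by
    unfold Dat.b
    rw [Finset.mul_sum]
    refine Finset.sum_congr rfl fun k _ => ?_
    rw [hx, one_mul, Matrix.inv_def, Matrix.smul_apply, smul_eq_mul]
    have : Ring.inverse (D.M x).det = (D.dt x)⁻¹ := by
      rw [Ring.inverse_eq_inv']; rfl
    rw [this]
    field_simp
  rw [h2]
  have e : ∑ k, D.A x i k * pd k D.U x = ∑ k, (D.M x).adjugate i k * pd k D.U x -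
      D.dt x * x i * ∑ k, x k * pd k D.U x := by
    simp only [A_one D hx, Finset.mul_sum, ← Finset.sum_sub_distrib]
    exact Finset.sum_congr rfl fun k _ => by ring
  rw [e, h1]; ring

lemma tr_A (hx : ‖x‖ = 1) : tr (D.A x) = sg D.H (D.U x) x := by
  unfold tr sg
  have h2 := BdN.sum_xx hx
  simp only [A_one D hx, Finset.sum_sub_distrib, ← Finset.mul_sum, h2]
  rw [← M_one D hx, mul_one]
  rfl

end Alg

/-- The integral inequality on the boundary. -/
theorem int_gen [Fact (3 ≤ n)] (D : Dat n) (T : Ten n) (hA : T.A = D.A) (hb : T.b = D.b)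
    {lam f : E n → ℝ}
    (dpos : ∀ x : E n, ‖x‖ = 1 → 0 < dts D.H (D.U x) x)
    (sm : ∀ x : E n, ‖x‖ = 1 → ContDiffAt ℝ ∞ f (Y D.H x (D.U x)))
    (bd : ∀ x : E n, ‖x‖ = 1 → f (Y D.H x (D.U x)) = - D.U x)
    (gl : ∀ x : E n, ‖x‖ = 1 → ∀ i, pd i lam (Y D.H x (D.U x)) = x i)
    (tp : ∀ x : E n, ‖x‖ = 1 → 0 < 1 + dL lam f (Y D.H x (D.U x)))
    (hl : ∀ x : E n, ‖x‖ = 1 → lap lam (Y D.H x (D.U x)) * dts D.H (D.U x) x =
      sg D.H (D.U x) x) :
    SI D.Phi ≤ SI (fun x => thl lam f (Y D.H x (D.U x)) * dts D.H (D.U x) x) := by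
  have hz : ∀ x : E n, ‖x‖ = 1 → zz D.H D.U x = Y D.H x (D.U x) := by
    intro x hx
    ext i
    rw [zz_apply, nv_one hx]
    rfl
  have hdL : ∀ x : E n, ‖x‖ = 1 → dL lam f (Y D.H x (D.U x)) =
      ∑ i, x i * pd i f (Y D.H x (D.U x)) := by
    intro x hx
    unfold dL
    simp only [gl x hx]
  have B : BdN D.H D.U T (fun x => dts D.H (D.U x) x) f :=
    { smH := D.smH
      smU := D.smU
      homH := D.homH
      homU := D.homU
      AW := fun x hx i j => by
        rw [hA, ← dt_one D hx]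
        exact AW D hx i j
      AU := fun x hx i => by
        rw [hA, hb, ← dt_one D hx]
        exact AU D hx (by rw [dt_one D hx]; exact (dpos x hx).ne') i
      dpos := dpos
      sm := fun x hx => by rw [hz x hx]; exact sm x hx
      bd := fun x hx => by rw [hz x hx]; exact bd x hx
      tp := fun x hx => by rw [hz x hx, ← hdL x hx]; exact tp x hx }
  have hPhi : D.Phi = T.Phi := by
    funext x
    unfold Dat.Phi Ten.Phi
    rw [hA, hb]
  rw [hPhi]
  refine B.main fun x hx => ?_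
  have h0 := ne_zero_of_one hx
  have hτ : 1 + dL lam f (Y D.H x (D.U x)) = tt D.H D.U f x := by
    rw [hdL x hx]
    unfold tt Fv
    simp only [nv_one hx, hz x hx]
  have hbv : ∀ i, bv lam f i (Y D.H x (D.U x)) = bb D.H D.U f i x := by
    intro i
    unfold bv bb
    rw [hτ, gl x hx, nv_one hx,
      show dL lam f (Y D.H x (D.U x)) = tt D.H D.U f x - 1 by rw [← hτ]; ring]
    unfold Fv
    rw [hz x hx]
  have h := B.theta (Λ := lap lam (Y D.H x (D.U x))) hx (by
    show lap lam (Y D.H x (D.U x)) * dts D.H (D.U x) x = tr (T.A x)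
    rw [hl x hx, hA, tr_A D hx])
  rw [← h]
  unfold thl
  rw [hτ]
  simp only [hbv, gl x hx]
  unfold Fv
  rw [hz x hx]

end Vale.Agent.P366.H353.N.X3
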