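import Mathlib
import Vale.Agent.P366.H208.N.X3c
import Vale.Agent.P366.H208.N.ToDat
import Vale.Agent.P366.H381.NH0

/-! Kerr-Schild exteriors in all dimensions: the integral of the null expansion. -/

open MeasureTheory Metric Filter Topology Set
open scoped ContDiff

noncomputable section
namespace Vale.Agent.P366.KSN

open Vale.Agent.P366 (pd E)
open Vale.Agent.P366.H353.N
open Vale.Agent.P366.Kerr (NullCone IsSlice)

variable {n : ℕ} {C : NullCone n} {lam f : E n → ℝ} {V : E (n + 1) → ℝ}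
  {D : Stmt.Exterior n}

/-- `int_thl` from the statements of X0. -/
theorem int_thl_of [Fact (3 ≤ n)]
    (dpos : ∀ x : E n, ‖x‖ = 1 → 0 < dts C.H (C.U x) x)
    (sm : ∀ x : E n, ‖x‖ = 1 → ContDiffAt ℝ ∞ f (Y C.H x (C.U x)))
    (bd : ∀ x : E n, ‖x‖ = 1 → f (Y C.H x (C.U x)) = - C.U x)
    (gl : ∀ x : E n, ‖x‖ = 1 → ∀ i, pd i lam (Y C.H x (C.U x)) = x i)
    (tp : ∀ x : E n, ‖x‖ = 1 → 0 < 1 + dL lam f (Y C.H x (C.U x)))
    (hl : ∀ x : E n, ‖x‖ = 1 → lap lam (Y C.H x (C.U x)) * dts C.H (C.U x) x =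
      sg C.H (C.U x) x) :
    SI C.toDat.Phi ≤ SI (fun x => thl lam f (Y C.H x (C.U x)) * dts C.H (C.U x) x) := by
  obtain ⟨T, hA, hb, -⟩ := toTen C.toDat
  exact X3.int_gen C.toDat T hA hb dpos sm bd gl tp hl

end Vale.Agent.P366.KSN
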