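import Mathlib
import Vale.Agent.P366.H208.N.X3
import Vale.Agent.P366.H222.N.X0e

/-! Kerr-Schild exteriors in all dimensions: `int_thl`. -/

open MeasureTheory Metric Filter Topology Set
open scoped ContDiff

noncomputable section
namespace Vale.Agent.P366.KSN

open Vale.Agent.P366 (pd E)
open Vale.Agent.P366.H353.N
open Vale.Agent.P366.Kerr (NullCone IsSlice)

variable {n : ℕ} {C : NullCone n} {lam f : E n → ℝ} {V : E (n + 1) → ℝ}
  {D : Stmt.Exterior n}

theorem int_thl [Fact (3 ≤ n)] (hS : IsSlice C lam V f D) :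
    SI C.toDat.Phi ≤ SI (fun x => thl lam f (Y C.H x (C.U x)) * dts C.H (C.U x) x) :=
  int_thl_of (fun _ hx => dts_pos C hx le_rfl) (fun _ hx => hS.smf _ (mem_Y hS hx le_rfl))
    (fun _ hx => (f_bdr hS hx).2) (fun _ hx i => pd_lam_Y hS hx le_rfl i)
    (fun _ hx => dL_pos hS (mem_Y hS hx le_rfl)) (fun _ hx => lap_lam_Y hS hx le_rfl)

end Vale.Agent.P366.KSN
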